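import Vale.Agent.P300LJ.Gn

/-!
# P300L, block JOIN: the generic choice
-/

set_option linter.all false

open scoped Manifold ContDiff Topology Matrix
open Set Filter Function
open Vale.Agent.P272.K (Cm Chart At)
open Vale.Agent.P272.K.Prod (fstP sndP glue fstP_glue sndP_glue)
open Vale.Agent.P281Z Vale.Agent.P300L Vale.Agent.P300LH
open Vale.Agent.P277Z (trans_an at_chart)

noncomputable section

namespace Vale.Agent.P300LJ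

/-- the tensor product with a fixed vector -/
def krL {N M : ℕ} (a : Cm N) : Cm M →ₗ[ℂ] Cm (N * M) where
  toFun b := kr a b
  map_add' _ _ := funext fun _ => mul_add _ _ _
  map_smul' _ _ := funext fun _ => mul_left_comm _ _ _

theorem kr_zero {N M : ℕ} (b : Cm M) : kr (0 : Cm N) b = 0 := funext fun _ => zero_mul _

theorem dv_kr {n N M : ℕ} {X : Type} [TopologicalSpace X] [ChartedSpace (Cm n) X] {a : X → Cm N}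
    {a' : X → Cm M} {x : X} {e : Chart n X} (he : At e x) (h : AnV n a x) (h' : AnV n a' x)
    (ξ : Cm n) : dv (fun x => kr (a x) (a' x)) e x ξ =
      kr (dv a e x ξ) (a' x) + kr (a x) (dv a' e x ξ) := by
  rw [dv, fderiv_kr (h e he).differentiableAt (h' e he).differentiableAt, he.left_inv]

theorem an_dot {E : Type} [NormedAddCommGroup E] [NormedSpace ℂ E] {N : ℕ} {f g : E → Cm N} {z : E}
    (hf : AnalyticAt ℂ f z) (hg : AnalyticAt ℂ g z) : AnalyticAt ℂ (fun z => f z ⬝ᵥ g z) z :=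
  Finset.analyticAt_fun_sum _ fun i _ => (analyticAt_pi_iff.1 hf i).mul (analyticAt_pi_iff.1 hg i)

section
variable {E F G : Type} [NormedAddCommGroup E] [NormedSpace ℂ E] [NormedAddCommGroup F]
  [NormedSpace ℂ F] [NormedAddCommGroup G] [NormedSpace ℂ G]

theorem an1 {g : E → G} {a : E} (h : AnalyticAt ℂ g a) {b : F} :
    AnalyticAt ℂ (fun z : E × F => g z.1) (a, b) :=
  AnalyticAt.comp (g := g) (f := Prod.fst) h analyticAt_fst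

theorem an2 {g : F → G} {b : F} (h : AnalyticAt ℂ g b) {a : E} :
    AnalyticAt ℂ (fun z : E × F => g z.2) (a, b) :=
  AnalyticAt.comp (g := g) (f := Prod.snd) h analyticAt_snd

end

variable {d β : ℕ} (P : Pk d) (T : Tor β) (b₀ : T.B.X) (m : ℕ)

/-- the space of the parameters -/
def Qs : Submodule ℂ ((Cm (P.N₁ * T.M) →L[ℂ] Cm m) × (Cm (P.N₂ * T.M) →L[ℂ] Cm m)) where
  carrier := {p | ∀ c, ∀ a ∈ P.A, a ∈ P.O c → ∀ j, b₀ ∈ T.O j →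
    p.1 (kr (P.s₁ c a) (T.l j b₀)) = P.μ c a • p.2 (kr (P.s₂ c a) (T.l j b₀))}
  add_mem' h h' c a h1 h2 j h3 := by
    simp only [Prod.fst_add, Prod.snd_add, ContinuousLinearMap.add_apply, smul_add,
      h c a h1 h2 j h3, h' c a h1 h2 j h3]
  zero_mem' c a _ _ j _ := by simp
  smul_mem' r p h c a h1 h2 j h3 := by
    simp only [Prod.smul_fst, Prod.smul_snd, ContinuousLinearMap.smul_apply, h c a h1 h2 j h3,
      smul_comm r]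

variable {P T m}

/-- the first evaluation -/
def ev₁ (y : Cm (P.N₁ * T.M)) : Qs P T b₀ m →ₗ[ℂ] Cm m where
  toFun p := p.1.1 y
  map_add' _ _ := rfl
  map_smul' _ _ := rfl

/-- the second evaluation -/
def ev₂ (y : Cm (P.N₂ * T.M)) : Qs P T b₀ m →ₗ[ℂ] Cm m where
  toFun p := p.1.2 y
  map_add' _ _ := rfl
  map_smul' _ _ := rfl

/-- the equation of the zero set -/
def ev (y₁ : Cm (P.N₁ * T.M)) (y₂ : Cm (P.N₂ * T.M)) (t : ℂ) : Qs P T b₀ m →ₗ[ℂ] Cm m :=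
  ev₁ b₀ y₁ - t • ev₂ b₀ y₂

/-- the derivatives along the torus, tested against `ξ` -/
def evD (D : Cm β →L[ℂ] Cm T.M) (y₁ : Cm P.N₁) (y₂ : Cm P.N₂) (ξ : Cm m) :
    Qs P T b₀ m →ₗ[ℂ] Cm β × Cm β :=
  (LinearMap.pi fun k => dotProductBilin ℂ ℂ ξ ∘ₗ ev₁ b₀ (kr y₁ (D (Pi.single k 1)))).prod
    (LinearMap.pi fun k => dotProductBilin ℂ ℂ ξ ∘ₗ ev₂ b₀ (kr y₂ (D (Pi.single k 1))))

variable {b₀}

theorem an_ev {E : Type} [NormedAddCommGroup E] [NormedSpace ℂ E] {f₁ : E → Cm (P.N₁ * T.M)}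
    {f₂ : E → Cm (P.N₂ * T.M)} {t : E → ℂ} {z : E} (h₁ : AnalyticAt ℂ f₁ z)
    (h₂ : AnalyticAt ℂ f₂ z) (ht : AnalyticAt ℂ t z) (q : Qs P T b₀ m) :
    AnalyticAt ℂ (fun z => ev b₀ (f₁ z) (f₂ z) (t z) q) z :=
  ((q.1.1.analyticAt _).comp h₁).sub (ht.smul ((q.1.2.analyticAt _).comp h₂))

theorem ex_q (τ₁ : Cm P.N₁) (τ₂ : Cm P.N₂) (ν₁ ν₂ : Cm T.M) (g : Cm m)
    (h : ∀ c, ∀ a ∈ P.A, a ∈ P.O c → ∀ j, b₀ ∈ T.O j → (τ₁ ⬝ᵥ P.s₁ c a) * (ν₁ ⬝ᵥ T.l j b₀) =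
      P.μ c a * ((τ₂ ⬝ᵥ P.s₂ c a) * (ν₂ ⬝ᵥ T.l j b₀))) : ∃ q : Qs P T b₀ m,
      (∀ a b, ev₁ b₀ (kr a b) q = ((τ₁ ⬝ᵥ a) * (ν₁ ⬝ᵥ b)) • g) ∧
        ∀ a b, ev₂ b₀ (kr a b) q = ((τ₂ ⬝ᵥ a) * (ν₂ ⬝ᵥ b)) • g :=
  ⟨⟨(el (kr τ₁ ν₁) g, el (kr τ₂ ν₂) g), fun c a h1 h2 j h3 => by
    rw [el_kr, el_kr, smul_smul, h c a h1 h2 j h3]⟩, fun _ _ => el_kr _ _ _ _ _,
    fun _ _ => el_kr _ _ _ _ _⟩

theorem kill {b : T.B.X} {j : T.κ} (hj : b ∈ T.O j) (hb : b ≠ b₀) :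
    ∃ ν : Cm T.M, ν ⬝ᵥ T.l j b = 1 ∧ ∀ j', b₀ ∈ T.O j' → ν ⬝ᵥ T.l j' b₀ = 0 := by
  obtain ⟨j₀, h₀⟩ := T.lf.cov b₀
  obtain ⟨ν, h1, h2⟩ := sep fun k => hb (T.lf.inj j j₀ b b₀ hj h₀ k)
  refine ⟨ν, h1, fun j' h => ?_⟩
  obtain ⟨c, hc⟩ := T.lf.chg j' j₀ b₀ h h₀
  rw [hc, dotProduct_smul, h2, smul_zero]

theorem surj₁ (ok : P.Ok) {c : P.κ} {x : P.X.X} (hx : x ∈ P.O c) {y : Cm T.M} (hy : y ≠ 0) :
    Surjective (ev₁ (m := m) b₀ (kr (P.s₁ c x) y)) := fun g => by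
  obtain ⟨t₁, t₂, h1, h2⟩ := ok.r₁ c x hx
  obtain ⟨ν, hν⟩ := sep0 hy
  obtain ⟨q, k, -⟩ := ex_q (b₀ := b₀) t₁ t₂ ν ν ((t₁ ⬝ᵥ P.s₁ c x)⁻¹ • g)
    fun c a h h' j _ => by rw [h2 c a h h', mul_assoc]
  exact ⟨q, by rw [k, hν, mul_one, smul_inv_smul₀ h1]⟩

theorem surj₂ (ok : P.Ok) {c : P.κ} {x : P.X.X} (hx : x ∈ P.O c) {y : Cm T.M} (hy : y ≠ 0) :
    Surjective (ev₂ (m := m) b₀ (kr (P.s₂ c x) y)) := fun g => by
  obtain ⟨t₁, t₂, h1, h2⟩ := ok.r₂ c x hx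
  obtain ⟨ν, hν⟩ := sep0 hy
  obtain ⟨q, -, k⟩ := ex_q (b₀ := b₀) t₁ t₂ ν ν ((t₂ ⬝ᵥ P.s₂ c x)⁻¹ • g)
    fun c a h h' j _ => by rw [h2 c a h h', mul_assoc]
  exact ⟨q, by rw [k, hν, mul_one, smul_inv_smul₀ h1]⟩

theorem ev_apply (y₁ : Cm (P.N₁ * T.M)) (y₂ : Cm (P.N₂ * T.M)) (t : ℂ) (q : Qs P T b₀ m) :
    ev b₀ y₁ y₂ t q = ev₁ b₀ y₁ q - t • ev₂ b₀ y₂ q := rfl

/-- off the origin every linear form on `X` occurs -/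
theorem ex_off {b b' : T.B.X} {j j' : T.κ} (hj : b ∈ T.O j) (hj' : b' ∈ T.O j')
    (hb : ¬ (b = b₀ ∧ b' = b₀)) : (∀ τ g, ∃ q : Qs P T b₀ m, ∀ a a' t,
      ev b₀ (kr a (T.l j b)) (kr a' (T.l j' b')) t q = (τ ⬝ᵥ a) • g) ∨ ∀ τ g, ∃ q : Qs P T b₀ m,
      ∀ a a' t, ev b₀ (kr a (T.l j b)) (kr a' (T.l j' b')) t q = -(t * τ ⬝ᵥ a') • g := by
  refine (not_and_or.1 hb).imp (fun h τ g => ?_) fun h τ g => ?_
  · obtain ⟨ν, h1, h2⟩ := kill hj h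
    obtain ⟨q, k, k'⟩ := ex_q (b₀ := b₀) τ 0 ν 0 g fun c a _ _ j h => by simp [h2 j h]
    exact ⟨q, fun a a' t => by simp [ev_apply, k, k', h1]⟩
  · obtain ⟨ν, h1, h2⟩ := kill hj' h
    obtain ⟨q, k, k'⟩ := ex_q (b₀ := b₀) 0 τ 0 ν g fun c a _ _ j h => by simp [h2 j h]
    exact ⟨q, fun a a' t => by simp [ev_apply, k, k', h1, smul_smul]⟩

theorem surj₃ (ok : P.Ok) {c : P.κ} {x : P.X.X} (hx : x ∈ P.O c) {b b' : T.B.X} {j j' : T.κ}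
    (hj : b ∈ T.O j) (hj' : b' ∈ T.O j') {t : ℂ} (ht : t ≠ 0 ∨ x ∉ P.A)
    (h : ¬ (x ∈ P.A ∧ b = b₀ ∧ b' = b₀)) :
    Surjective (ev (m := m) b₀ (kr (P.s₁ c x) (T.l j b)) (kr (P.s₂ c x) (T.l j' b')) t) := by
  intro g
  by_cases hA : x ∈ P.A
  · have ht := ht.resolve_right (not_not.2 hA)
    rcases ex_off (P := P) (m := m) hj hj' fun k => h ⟨hA, k⟩ with k | k
    · obtain ⟨τ, hτ⟩ := sep0 (ok.l₁.nz c x hx)
      exact (k τ g).imp fun q hq => by rw [hq, hτ, one_smul]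
    · obtain ⟨τ, hτ⟩ := sep0 (ok.l₂.nz c x hx)
      exact (k τ ((-t)⁻¹ • g)).imp fun q hq => by
        rw [hq, hτ, mul_one, smul_inv_smul₀ (neg_ne_zero.2 ht)]
  · obtain ⟨t₁, h1, h2⟩ := ok.r₃ c x hx hA
    obtain ⟨ν, hν⟩ := sep0 (T.lf.nz j b hj)
    obtain ⟨q, k, k'⟩ := ex_q (b₀ := b₀) t₁ 0 ν 0 ((t₁ ⬝ᵥ P.s₁ c x)⁻¹ • g)
      fun c a h h' j _ => by simp [h2 c a h h']
    exact ⟨q, by simp [ev_apply, k, k', hν, smul_inv_smul₀ h1]⟩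

theorem surj₄ (ok : P.Ok) {c c' : P.κ} {x x' : P.X.X} (hx : x ∈ P.O c) (hx' : x' ∈ P.O c')
    (hne : x ≠ x') {b b' : T.B.X} {j j' : T.κ} (hj : b ∈ T.O j) (hj' : b' ∈ T.O j') {t t' : ℂ}
    (ht : t ≠ 0) (ht' : t' ≠ 0) (h : ¬ (b = b₀ ∧ b' = b₀)) :
    Surjective ((ev (m := m) b₀ (kr (P.s₁ c x) (T.l j b)) (kr (P.s₂ c x) (T.l j' b')) t).prod
      (ev (m := m) b₀ (kr (P.s₁ c' x') (T.l j b)) (kr (P.s₂ c' x') (T.l j' b')) t')) := by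
  rintro ⟨g, g'⟩
  rcases ex_off (P := P) (m := m) hj hj' h with k | k
  · obtain ⟨τ, h1, h2⟩ := sep fun e => hne (ok.l₁.inj c c' x x' hx hx' e)
    obtain ⟨τ', h1', h2'⟩ := sep fun e => hne (ok.l₁.inj c' c x' x hx' hx e).symm
    obtain ⟨q, hq⟩ := k τ g
    obtain ⟨q', hq'⟩ := k τ' g'
    exact ⟨q + q', by simp [hq, hq', h1, h2, h1', h2']⟩
  · obtain ⟨τ, h1, h2⟩ := sep fun e => hne (ok.l₂.inj c c' x x' hx hx' e)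
    obtain ⟨τ', h1', h2'⟩ := sep fun e => hne (ok.l₂.inj c' c x' x hx' hx e).symm
    obtain ⟨q, hq⟩ := k τ (-t⁻¹ • g)
    obtain ⟨q', hq'⟩ := k τ' (-t'⁻¹ • g')
    exact ⟨q + q', by simp [hq, hq', h1, h2, h1', h2', smul_inv_smul₀ ht, smul_inv_smul₀ ht']⟩

theorem surj₅ {j : T.κ} (hj : b₀ ∈ T.O j) {D : Cm β →L[ℂ] Cm T.M}
    (hD : ∀ v (c : ℂ), D v = c • T.l j b₀ → v = 0) {y₁ : Cm P.N₁} {y₂ : Cm P.N₂} (h₁ : y₁ ≠ 0)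
    (h₂ : y₂ ≠ 0) {ξ : Cm m} (hξ : ξ ≠ 0) : Surjective (evD b₀ D y₁ y₂ ξ) := by
  rintro ⟨g₁, g₂⟩
  obtain ⟨ν₁, a1, a2⟩ := ex_nu (T.lf.nz j b₀ hj) D hD g₁
  obtain ⟨ν₂, b1, b2⟩ := ex_nu (T.lf.nz j b₀ hj) D hD g₂
  obtain ⟨τ₁, c1⟩ := sep0 h₁
  obtain ⟨τ₂, c2⟩ := sep0 h₂
  obtain ⟨g, hg⟩ := sep0 hξ
  obtain ⟨q, k, k'⟩ := ex_q (b₀ := b₀) τ₁ τ₂ ν₁ ν₂ g fun c a _ _ j' h => by
    obtain ⟨u, hu⟩ := T.lf.chg j' j b₀ h hj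
    simp [hu, a1, b1]
  refine ⟨q, Prod.ext (funext fun i => ?_) (funext fun i => ?_)⟩
  · show ξ ⬝ᵥ ev₁ b₀ (kr y₁ (D (Pi.single i 1))) q = g₁ i
    simp [k, c1, a2, dotProduct_comm ξ, hg]
  · show ξ ⬝ᵥ ev₂ b₀ (kr y₂ (D (Pi.single i 1))) q = g₂ i
    simp [k', c2, b2, dotProduct_comm ξ, hg]

theorem dv_a₁ (ok : P.Ok) {c : P.κ} {x : P.X.X} (hx : x ∈ P.O c)
    {e : Chart d P.X.X} (he : At e x) {j : T.κ} (hj : b₀ ∈ T.O j) {e' : Chart β T.B.X}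
    (he' : At e' b₀) (v₁ v₂ : Cm β) :
    dv (X := ((P.X.prod T.B).prod T.B).X) (fun s => kr (P.s₁ c s.1.1) (T.l j s.1.2))
      ((P.X.prod T.B).pc T.B (P.X.pc T.B e e') e') ((x, b₀), b₀) (glue (glue 0 v₁) v₂) =
      kr (P.s₁ c x) (fderiv ℂ (fun z => T.l j (e'.symm z)) (e' b₀) v₁) := by
  have l := lo_of T.lf
  have h1 : At (P.X.pc T.B e e') (x, b₀) := at_prod he he'
  have k1 := lo_fst (lo_of ok.l₁) l
  have k2 := lo_snd (lo_of ok.l₁) l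
  have a1 := dv_fst (x := ((x, b₀), b₀))
    (t := fun y : (P.X.prod T.B).X => kr (P.s₁ c y.1) (T.l j y.2)) e'
    ((lo_kr k1 k2).hol (c, j) (x, b₀) ⟨hx, hj⟩ _ h1) (glue (glue 0 v₁) v₂)
  have a2 := dv_kr (X := (P.X.prod T.B).X) (a := fun y => P.s₁ c y.1) (a' := fun y => T.l j y.2) h1
    (k1.hol (c, j) (x, b₀) ⟨hx, hj⟩) (k2.hol (c, j) (x, b₀) ⟨hx, hj⟩) (glue 0 v₁)
  have a3 := dv_fst (x := (x, b₀)) e' (ok.l₁.hol c x hx e he) (glue 0 v₁)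
  have a4 := dv_snd (x := (x, b₀)) e (T.lf.hol j b₀ hj e' he') (glue 0 v₁)
  rw [fstP_glue] at a1 a3
  rw [sndP_glue] at a4
  have a5 := a3.trans (map_zero _)
  exact (a1.trans a2).trans ((congrArg₂ (fun u v => kr u (T.l j b₀) + kr (P.s₁ c x) v) a5 a4).trans
    (by rw [kr_zero, zero_add]))

theorem dv_a₂ (ok : P.Ok) {c : P.κ} {x : P.X.X} (hx : x ∈ P.O c)
    {e : Chart d P.X.X} (he : At e x) {j : T.κ} (hj : b₀ ∈ T.O j) {e' : Chart β T.B.X}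
    (he' : At e' b₀) (v₁ v₂ : Cm β) :
    dv (X := ((P.X.prod T.B).prod T.B).X) (fun s => kr (P.s₂ c s.1.1) (T.l j s.2))
      ((P.X.prod T.B).pc T.B (P.X.pc T.B e e') e') ((x, b₀), b₀) (glue (glue 0 v₁) v₂) =
      kr (P.s₂ c x) (fderiv ℂ (fun z => T.l j (e'.symm z)) (e' b₀) v₂) := by
  have l := lo_of T.lf
  have h1 : At (P.X.pc T.B e e') (x, b₀) := at_prod he he'
  have h2 : At ((P.X.prod T.B).pc T.B (P.X.pc T.B e e') e') ((x, b₀), b₀) := at_prod h1 he'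
  have k3 := lo_fst (lo_of ok.l₂) l
  have a1 := dv_kr (X := ((P.X.prod T.B).prod T.B).X) (a := fun y => P.s₂ c y.1.1)
    (a' := fun y => T.l j y.2) h2 ((lo_fst k3 l).hol ((c, j), j) ((x, b₀), b₀) ⟨⟨hx, hj⟩, hj⟩)
    ((lo_snd k3 l).hol ((c, j), j) ((x, b₀), b₀) ⟨⟨hx, hj⟩, hj⟩) (glue (glue 0 v₁) v₂)
  have a2 := dv_fst (x := ((x, b₀), b₀)) (t := fun y : (P.X.prod T.B).X => P.s₂ c y.1) e'
    (k3.hol (c, j) (x, b₀) ⟨hx, hj⟩ _ h1) (glue (glue 0 v₁) v₂)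
  have a3 := dv_fst (x := (x, b₀)) e' (ok.l₂.hol c x hx e he) (glue 0 v₁)
  have a4 := dv_snd (V := P.X.prod T.B) (x := ((x, b₀), b₀)) (P.X.pc T.B e e')
    (T.lf.hol j b₀ hj e' he') (glue (glue 0 v₁) v₂)
  rw [fstP_glue] at a2 a3
  rw [sndP_glue] at a4
  have a5 := (a2.trans a3).trans (map_zero _)
  exact a1.trans ((congrArg₂ (fun u v => kr u (T.l j b₀) + kr (P.s₂ c x) v) a5 a4).trans
    (by rw [kr_zero, zero_add]))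

theorem tv_A (ok : P.Ok) (p : Qs P T b₀ m) {c : P.κ} {x : P.X.X} (hx : x ∈ P.O c)
    {e : Chart d P.X.X} (he : At e x) {j : T.κ} (hj : b₀ ∈ T.O j) {e' : Chart β T.B.X}
    (he' : At e' b₀) (nz : p.1.1 (kr (P.s₁ c x) (T.l j b₀)) ≠ 0)
    (h : ∀ ξ : Cm m, ξ ≠ 0 → evD b₀ (fderiv ℂ (fun z => T.l j (e'.symm z)) (e' b₀)) (P.s₁ c x)
      (P.s₂ c x) ξ p ≠ 0) :
    TV (jo P T p.1.1 p.1.2) ((c, j), j) ((x, b₀), b₀)
      ((P.X.prod T.B).pc T.B (P.X.pc T.B e e') e') := by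
  intro t ht g
  have ht0 : t ≠ 0 := fun k => nz (ht.trans (by rw [k, zero_smul]))
  set D := fderiv ℂ (fun z => T.l j (e'.symm z)) (e' b₀)
  let A : (Cm β × Cm β) →ₗ[ℂ] Cm m :=
    (p.1.1.toLinearMap ∘ₗ krL (P.s₁ c x) ∘ₗ D.toLinearMap).coprod
      (-t • (p.1.2.toLinearMap ∘ₗ krL (P.s₂ c x) ∘ₗ D.toLinearMap))
  obtain ⟨⟨v₁, v₂⟩, hv⟩ := surj_of_dual A (fun ξ hξ => by
    by_contra h0
    refine h ξ h0 (Prod.ext (funext fun i => ?_) (funext fun i => ?_))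
    · have := hξ (Pi.single i 1, 0)
      simp only [A, LinearMap.coprod_apply, map_zero, add_zero] at this
      exact this
    · have := hξ (0, Pi.single i 1)
      simp only [A, LinearMap.coprod_apply, map_zero, zero_add, LinearMap.smul_apply,
        dotProduct_smul, smul_eq_mul, mul_eq_zero, neg_eq_zero, ht0, false_or] at this
      exact this) g
  have e₁ := dv_a₁ ok hx he hj he' v₁ v₂
  have e₂ := dv_a₂ ok hx he hj he' v₁ v₂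
  have key : p.1.1 (dv (X := ((P.X.prod T.B).prod T.B).X)
      (fun s => kr (P.s₁ c s.1.1) (T.l j s.1.2)) ((P.X.prod T.B).pc T.B (P.X.pc T.B e e') e')
      ((x, b₀), b₀) (glue (glue 0 v₁) v₂)) - t • p.1.2 (dv (X := ((P.X.prod T.B).prod T.B).X)
      (fun s => kr (P.s₂ c s.1.1) (T.l j s.2)) ((P.X.prod T.B).pc T.B (P.X.pc T.B e e') e')
      ((x, b₀), b₀) (glue (glue 0 v₁) v₂)) - (0 : ℂ) • p.1.2 (kr (P.s₂ c x) (T.l j b₀)) = g := by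
    rw [e₁, e₂, zero_smul, sub_zero, sub_eq_add_neg, ← neg_smul]
    exact hv
  exact ⟨(glue (glue 0 v₁) v₂, 0), key⟩

theorem tv_off {n : ℕ} (J : Jo n m) (h : J.Pre) {b : J.κ} {s : J.S.X} (hb : s ∈ J.O b)
    {e : Chart n J.S.X} (he : At e s) {t : ℂ} (k : Surjective (fderiv ℂ (fun z : Cm n × ℂ =>
      J.p₁ (J.a₁ b (e.symm z.1)) - z.2 • J.p₂ (J.a₂ b (e.symm z.1))) (e s, t))) :
    Surjective fun q : Cm n × ℂ =>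
      J.p₁ (dv (J.a₁ b) e s q.1) - t • J.p₂ (dv (J.a₂ b) e s q.1) - q.2 • J.p₂ (J.a₂ b s) := by
  have d₁ := J.p₁.hasFDerivAt.comp (e s, t) (HasFDerivAt.comp (f := Prod.fst) (e s, t)
    (h.lo₁.hol b s hb e he).differentiableAt.hasFDerivAt hasFDerivAt_fst)
  have d₂ := J.p₂.hasFDerivAt.comp (e s, t) (HasFDerivAt.comp (f := Prod.fst) (e s, t)
    (h.lo₂.hol b s hb e he).differentiableAt.hasFDerivAt hasFDerivAt_fst)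
  have d : HasFDerivAt (fun z : Cm n × ℂ =>
      J.p₁ (J.a₁ b (e.symm z.1)) - z.2 • J.p₂ (J.a₂ b (e.symm z.1))) _ (e s, t) :=
    d₁.sub (hasFDerivAt_snd.smul d₂)
  rw [d.fderiv] at k
  intro g
  obtain ⟨q, hq⟩ := k g
  refine ⟨q, Eq.trans ?_ hq⟩
  simp [he.left_inv, sub_sub]

theorem gen_of (ok : P.Ok) (h1 : d + β < m) (h2 : d + 1 < m) (h3 : d + m < β + β)
    (h4 : d + d + (β + β) + 2 < m + m) : ∃ (p₁ : Cm (P.N₁ * T.M) →L[ℂ] Cm m)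
      (p₂ : Cm (P.N₂ * T.M) →L[ℂ] Cm m), (jo P T p₁ p₂).Gen ∧ Fit P T b₀ p₁ p₂ := by
  obtain ⟨ι, _, c, e, hc⟩ := fin_cover P.X ok.l₁.opn ok.l₁.cov
  obtain ⟨ι', _, j, e', hj⟩ := fin_cover T.B T.lf.opn T.lf.cov
  have pre := fun p₁ p₂ => seg d β m P T p₁ p₂ ok
  obtain ⟨ι₀, _, k, E, hk⟩ := fin_cover (jo (m := m) P T 0 0).S (pre 0 0).lo₁.opn (pre 0 0).lo₁.cov
  obtain ⟨i₀, hi₀, he₀⟩ := hj b₀
  let f₁ := fun i z => P.s₁ (c i) ((e i).symm z)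
  let f₂ := fun i z => P.s₂ (c i) ((e i).symm z)
  let l := fun i z => T.l (j i) ((e' i).symm z)
  have G1 := fun i : ι × ι' => avoidG (Q := Qs P T b₀ m) (E := Cm d × Cm β) (F := Cm m)
    (by simpa using h1)
    fun z => ev₁ (m := m) b₀ (kr (f₁ i.1 z.1) (l i.2 z.2))
  have G2 := fun i : ι × ι' => avoidG (Q := Qs P T b₀ m) (E := Cm d × Cm β) (F := Cm m)
    (by simpa using h1)
    fun z => ev₂ (m := m) b₀ (kr (f₂ i.1 z.1) (l i.2 z.2))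
  have G3 := fun i : ι => avoidG (Q := Qs P T b₀ m) (E := Cm d × ℂ) (F := Cm m) (by simpa using h2)
    fun z => ev (m := m) b₀ (kr (f₁ i z.1) (T.l (j i₀) b₀)) (kr (f₂ i z.1) (T.l (j i₀) b₀)) z.2
  have G4 := fun i : (ι × ι) × ι' × ι' =>
    avoidG (Q := Qs P T b₀ m) (E := ((Cm d × Cm d) × Cm β × Cm β) × ℂ × ℂ) (F := Cm m × Cm m) (by simpa using h4)
      fun z =>
      (ev (m := m) b₀ (kr (f₁ i.1.1 z.1.1.1) (l i.2.1 z.1.2.1))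
        (kr (f₂ i.1.1 z.1.1.1) (l i.2.2 z.1.2.2)) z.2.1).prod
      (ev (m := m) b₀ (kr (f₁ i.1.2 z.1.1.2) (l i.2.1 z.1.2.1))
        (kr (f₂ i.1.2 z.1.1.2) (l i.2.2 z.1.2.2)) z.2.2)
  have G5 := fun i : ι => avoidG (Q := Qs P T b₀ m) (E := Cm d × Cm m) (F := Cm β × Cm β)
    (by simpa using h3)
    fun z => evD b₀ (fderiv ℂ (l i₀) (e' i₀ b₀)) (f₁ i z.1) (f₂ i z.1) z.2
  have G6 := fun i : ι₀ => transG (Q := Qs P T b₀ m) (F := Cm m) (E := Cm (d + β + β) × ℂ) fun z =>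
    ev (m := m) b₀ ((jo (m := m) P T 0 0).a₁ (k i) ((E i).symm z.1))
      ((jo (m := m) P T 0 0).a₂ (k i) ((E i).symm z.1)) z.2
  obtain ⟨p, ⟨⟨g1, g2⟩, g3, g4⟩, g5, g6⟩ := ((((eventually_all.2 G1).and (eventually_all.2 G2)).and
    ((eventually_all.2 G3).and (eventually_all.2 G4))).and
    ((eventually_all.2 G5).and (eventually_all.2 G6))).exists
  clear G1 G2 G3 G4 G5 G6
  have a₁ : ∀ {i x}, x ∈ P.O (c i) ∧ At (e i) x → AnalyticAt ℂ (f₁ i) (e i x) ∧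
      AnalyticAt ℂ (f₂ i) (e i x) ∧ f₁ i (e i x) = P.s₁ (c i) x ∧ f₂ i (e i x) = P.s₂ (c i) x :=
    fun h => ⟨ok.l₁.hol _ _ h.1 _ h.2, ok.l₂.hol _ _ h.1 _ h.2, congrArg _ h.2.left_inv,
      congrArg _ h.2.left_inv⟩
  have a₂ : ∀ {i b}, b ∈ T.O (j i) ∧ At (e' i) b → AnalyticAt ℂ (l i) (e' i b) ∧
      l i (e' i b) = T.l (j i) b := fun h => ⟨T.lf.hol _ _ h.1 _ h.2, congrArg _ h.2.left_inv⟩
  have nz₁ : ∀ c' x j' b, x ∈ P.O c' → b ∈ T.O j' → p.1.1 (kr (P.s₁ c' x) (T.l j' b)) ≠ 0 := by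
    intro c' x j' b hx hb h0
    obtain ⟨i, hi⟩ := hc x
    obtain ⟨i', hi'⟩ := hj b
    obtain ⟨u, hu⟩ := ok.l₁.chg _ _ x hi.1 hx
    obtain ⟨u', hu'⟩ := T.lf.chg _ _ b hi'.1 hb
    refine g1 (i, i') (e i x, e' i' b) (fun q => (q.1.1.analyticAt _).comp (an_kr
      (an1 (a₁ hi).1) (an2 (a₂ hi').1))) ?_ ?_ <;> simp only [(a₁ hi).2.2.1, (a₂ hi').2]
    · exact surj₁ ok hi.1 (T.lf.nz _ _ hi'.1)
    · show p.1.1 _ = 0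
      rw [hu, hu', kr_smul, map_smul, h0, smul_zero]
  have nz₂ : ∀ c' x j' b, x ∈ P.O c' → b ∈ T.O j' → p.1.2 (kr (P.s₂ c' x) (T.l j' b)) ≠ 0 := by
    intro c' x j' b hx hb h0
    obtain ⟨i, hi⟩ := hc x
    obtain ⟨i', hi'⟩ := hj b
    obtain ⟨u, hu⟩ := ok.l₂.chg _ _ x hi.1 hx
    obtain ⟨u', hu'⟩ := T.lf.chg _ _ b hi'.1 hb
    refine g2 (i, i') (e i x, e' i' b) (fun q => (q.1.2.analyticAt _).comp (an_kr
      (an1 (a₁ hi).2.1) (an2 (a₂ hi').1))) ?_ ?_ <;> simp only [(a₁ hi).2.2.2, (a₂ hi').2]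
    · exact surj₂ ok hi.1 (T.lf.nz _ _ hi'.1)
    · show p.1.2 _ = 0
      rw [hu, hu', kr_smul, map_smul, h0, smul_zero]
  have hA : ∀ x, ((x, b₀), b₀) ∈ (jo P T p.1.1 p.1.2).Z → x ∈ P.A := by
    intro x hx
    by_contra hA
    obtain ⟨i, hi⟩ := hc x
    obtain ⟨t, ht⟩ := hx ((c i, j i₀), j i₀) ⟨⟨hi.1, hi₀⟩, hi₀⟩
    refine g3 i (e i x, t) (an_ev (an_kr (an1 (a₁ hi).1)
      analyticAt_const) (an_kr (an1 (a₁ hi).2.1) analyticAt_const)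
      analyticAt_snd) ?_ ?_ <;> simp only [(a₁ hi).2.2.1, (a₁ hi).2.2.2]
    · exact surj₃ ok hi.1 hi₀ hi₀ (.inr hA) fun h => hA h.1
    · exact sub_eq_zero.2 ht
  refine ⟨p.1.1, p.1.2, ⟨fun b s hs => nz₁ _ _ _ _ hs.1.1 hs.1.2,
    fun b s hs => nz₂ _ _ _ _ hs.1.1 hs.2, fun b s hs t E' hE' => ?_⟩, p.2, fun x x' b b' hx hx' => ?_⟩
  · revert t
    obtain ⟨⟨x, b₁⟩, b₂⟩ := s
    by_cases hs0 : x ∈ P.A ∧ b₁ = b₀ ∧ b₂ = b₀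
    · obtain ⟨-, rfl, rfl⟩ := hs0
      obtain ⟨i, hi⟩ := hc x
      refine (tv_A ok p hi.1 hi.2 hi₀ he₀ (nz₁ _ _ _ _ hi.1 hi₀) fun ξ hξ => ?_).chg (pre _ _)
        ⟨⟨hi.1, hi₀⟩, hi₀⟩ hs (at_prod (at_prod hi.2 he₀) he₀) hE'
      have k := g5 i (e i x, ξ) (fun q => AnalyticAt.prod
        (AnalyticAt.pi fun _ => an_dot analyticAt_snd ((q.1.1.analyticAt _).comp (an_kr
          (an1 (a₁ hi).1) analyticAt_const)))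
        (AnalyticAt.pi fun _ => an_dot analyticAt_snd ((q.1.2.analyticAt _).comp (an_kr
          (an1 (a₁ hi).2.1) analyticAt_const))))
      simp only [(a₁ hi).2.2.1, (a₁ hi).2.2.2] at k
      exact k (surj₅ hi₀ (T.lf.imm _ _ hi₀ _ he₀) (ok.l₁.nz _ _ hi.1) (ok.l₂.nz _ _ hi.1) hξ)
    · obtain ⟨i, hi, hE⟩ := hk ((x, b₁), b₂)
      refine TV.chg (pre p.1.1 p.1.2) hi hs hE hE' fun t ht =>
        tv_off (jo P T p.1.1 p.1.2) (pre _ _) hi hE ?_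
      have k := g6 i (E i ((x, b₁), b₂), t) (an_ev
        (an1 ((pre 0 0).lo₁.hol _ _ hi _ hE))
        (an1 ((pre 0 0).lo₂.hol _ _ hi _ hE)) analyticAt_snd)
      simp only [hE.left_inv] at k
      exact k (surj₃ ok hi.1.1 hi.1.2 hi.2 (.inl fun h0 => nz₁ _ _ _ _ hi.1.1 hi.1.2
        (ht.trans (by rw [h0, zero_smul]))) hs0) (sub_eq_zero.2 ht)
  · by_cases hb : b = b₀ ∧ b' = b₀
    · obtain ⟨rfl, rfl⟩ := hb
      exact .inr ⟨hA x hx, hA x' hx', rfl, rfl⟩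
    refine .inl (by_contra fun hne => ?_)
    obtain ⟨i, hi⟩ := hc x
    obtain ⟨i', hi'⟩ := hc x'
    obtain ⟨r, hr⟩ := hj b
    obtain ⟨r', hr'⟩ := hj b'
    obtain ⟨t, ht⟩ := hx ((c i, j r), j r') ⟨⟨hi.1, hr.1⟩, hr'.1⟩
    obtain ⟨t', ht'⟩ := hx' ((c i', j r), j r') ⟨⟨hi'.1, hr.1⟩, hr'.1⟩
    refine g4 ((i, i'), r, r') (((e i x, e i' x'), e' r b, e' r' b'), t, t') (fun q =>
      (an_ev (an_kr (an1 (an1 (an1 (a₁ hi).1))) (an1 (an2 (an1 (a₂ hr).1))))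
        (an_kr (an1 (an1 (an1 (a₁ hi).2.1))) (an1 (an2 (an2 (a₂ hr').1))))
        (an2 analyticAt_fst) q).prod
      (an_ev (an_kr (an1 (an1 (an2 (a₁ hi').1))) (an1 (an2 (an1 (a₂ hr).1))))
        (an_kr (an1 (an1 (an2 (a₁ hi').2.1))) (an1 (an2 (an2 (a₂ hr').1))))
        (an2 analyticAt_snd) q)) ?_ ?_ <;>
      simp only [(a₁ hi).2.2.1, (a₁ hi).2.2.2, (a₁ hi').2.2.1, (a₁ hi').2.2.2, (a₂ hr).2, (a₂ hr').2]
    · exact surj₄ ok hi.1 hi'.1 hne hr.1 hr'.1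
        (fun h0 => nz₁ _ _ _ _ hi.1 hr.1 (ht.trans (by rw [h0, zero_smul])))
        (fun h0 => nz₁ _ _ _ _ hi'.1 hr.1 (ht'.trans (by rw [h0, zero_smul]))) hb
    · exact Prod.ext (sub_eq_zero.2 ht) (sub_eq_zero.2 ht')

theorem gen : P300L.GEN := fun _ _ _ ok =>
  gen_of ok (by norm_num) (by norm_num) (by norm_num) (by norm_num)

end Vale.Agent.P300LJ
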