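import Mathlib

/-!
# P300L, block JOIN: the Levi form of `log ‖f‖ ^ 2` and negative real planes
-/

set_option linter.all false

open Set Filter Function Complex
open scoped Topology InnerProductSpace

noncomputable section

namespace Vale.Agent.P300LJ

theorem neg_plane {V : Type} [AddCommGroup V] [Module ℝ V] [FiniteDimensional ℝ V] {k : ℕ}
    (hk : Module.finrank ℝ V = 2 * k) (J : V →ₗ[ℝ] V) (B : V →ₗ[ℝ] V →ₗ[ℝ] ℝ)
    (h : ∀ v ≠ 0, B v v + B (J v) (J v) < 0) :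
    ∃ i : (Fin k → ℝ) →ₗ[ℝ] V, ∀ u ≠ 0, B (i u) (i u) < 0 := by
  classical
  let B' : LinearMap.BilinForm ℝ V := B + B.flip
  have hB' : ∀ v w, B' v w = B v w + B w v := fun v w => rfl
  have hsym : LinearMap.IsSymm B' := ⟨fun v w => by simp only [hB', RingHom.id_apply, add_comm]⟩
  obtain ⟨b, hb⟩ := LinearMap.BilinForm.exists_orthogonal_basis hsym
  have hq : ∀ v, B' v v = ∑ j, (b.repr v j) ^ 2 * B' (b j) (b j) := by
    intro v
    have h1 : B' v v = B' (∑ j, b.repr v j • b j) (∑ j, b.repr v j • b j) := by rw [b.sum_repr]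
    rw [h1]
    simp only [map_sum, LinearMap.sum_apply, map_smul, LinearMap.smul_apply, smul_eq_mul]
    refine Finset.sum_congr rfl fun j _ => ?_
    rw [Finset.sum_eq_single j]
    · ring
    · intro i _ hij
      have h2 : B' (b i) (b j) = 0 := hb hij
      rw [h2, mul_zero]
    · intro h; exact absurd (Finset.mem_univ j) h
  let S := {j // B' (b j) (b j) < 0}
  let π : V →ₗ[ℝ] S → ℝ := LinearMap.pi fun j => b.coord j.1
  have hpos : ∀ v, π v = 0 → 0 ≤ B v v := by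
    intro v hv
    have h1 : 0 ≤ B' v v := by
      rw [hq]
      refine Finset.sum_nonneg fun j _ => ?_
      by_cases hj : B' (b j) (b j) < 0
      · have h2 : b.repr v j = 0 := congrFun hv ⟨j, hj⟩
        rw [h2]; simp
      · exact mul_nonneg (sq_nonneg _) (not_lt.1 hj)
    rw [hB'] at h1
    linarith
  have hinj : Injective (π.prod (π ∘ₗ J)) := by
    rw [← LinearMap.ker_eq_bot, LinearMap.ker_eq_bot']
    intro v hv
    by_contra hne
    have h1 := hpos v (congrArg Prod.fst hv)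
    have h2 := hpos (J v) (congrArg Prod.snd hv)
    have := h v hne
    linarith
  have hcard := LinearMap.finrank_le_finrank_of_injective hinj
  rw [hk, Module.finrank_prod, Module.finrank_fintype_fun_eq_card] at hcard
  obtain ⟨σ⟩ : Nonempty (Fin k ↪ S) :=
    Function.Embedding.nonempty_of_card_le (by rw [Fintype.card_fin]; omega)
  let i : (Fin k → ℝ) →ₗ[ℝ] V := ∑ a : Fin k, (LinearMap.proj a).smulRight (b (σ a).1)
  have hi : ∀ u j, b.repr (i u) j = ∑ a, if (σ a).1 = j then u a else 0 := by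
    intro u j
    simp only [i, LinearMap.sum_apply, LinearMap.smulRight_apply, LinearMap.proj_apply, map_sum,
      map_smul, Finsupp.finset_sum_apply, Finsupp.smul_apply, Module.Basis.repr_self,
      Finsupp.single_apply, smul_eq_mul, mul_ite, mul_one, mul_zero]
  refine ⟨i, fun u hu => ?_⟩
  obtain ⟨a, ha⟩ := Function.ne_iff.1 hu
  have h1 : B' (i u) (i u) < 0 := by
    rw [hq]
    have h2 : ∀ j ∈ (Finset.univ : Finset (Fin (Module.finrank ℝ V))),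
        (b.repr (i u) j) ^ 2 * B' (b j) (b j) ≤ 0 := by
      intro j _
      by_cases hj : B' (b j) (b j) < 0
      · exact mul_nonpos_of_nonneg_of_nonpos (sq_nonneg _) hj.le
      · rw [hi, Finset.sum_eq_zero]
        · simp
        · intro a _
          rw [if_neg]
          intro h
          exact hj (h ▸ (σ a).2)
    have h3 : (b.repr (i u) (σ a).1) ^ 2 * B' (b (σ a).1) (b (σ a).1) < 0 := by
      rw [hi, Finset.sum_eq_single a, if_pos rfl]
      · exact mul_neg_of_pos_of_neg (sq_pos_of_ne_zero ha) (σ a).2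
      · intro a' _ haa
        rw [if_neg]
        intro h
        exact haa (σ.injective (Subtype.ext h))
      · intro h; exact absurd (Finset.mem_univ a) h
    have h4 := Finset.sum_lt_sum (g := fun _ => (0 : ℝ)) h2 ⟨_, Finset.mem_univ _, h3⟩
    simpa using h4
  rw [hB'] at h1
  linarith

section
variable {E H : Type} [NormedAddCommGroup E] [NormedSpace ℝ E] [NormedSpace ℂ E]
  [IsScalarTower ℝ ℂ E] [NormedAddCommGroup H] [InnerProductSpace ℂ H] [NormedSpace ℝ H]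
  [IsScalarTower ℝ ℂ H] [CompleteSpace H]

/-- second derivative in one direction -/
def D2 (φ : E → ℝ) (z v : E) : ℝ := fderiv ℝ (fderiv ℝ φ) z v v

/-- four times the Levi form -/
def Lv (φ : E → ℝ) (z v : E) : ℝ := D2 φ z v + D2 φ z (I • v)

theorem d2_eq {φ : E → ℝ} {z : E} (h : ContDiffAt ℝ 2 φ z) (v : E) :
    D2 φ z v = fderiv ℝ (fun w => fderiv ℝ φ w v) z v := by
  have h1 : DifferentiableAt ℝ (fderiv ℝ φ) z :=
    (h.fderiv_right (m := 1) (by norm_num)).differentiableAt (by norm_num)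
  rw [(h1.hasFDerivAt.clm_apply (hasFDerivAt_const v z)).fderiv]
  simp [D2]

theorem d2_lin {φ ψ : E → ℝ} {z : E} (h : ContDiffAt ℝ 2 φ z) (h' : ContDiffAt ℝ 2 ψ z) (c : ℝ)
    (v : E) : D2 (fun w => φ w - c * ψ w) z v = D2 φ z v - c * D2 ψ z v := by
  have h1 : DifferentiableAt ℝ (fderiv ℝ φ) z :=
    (h.fderiv_right (m := 1) (by norm_num)).differentiableAt (by norm_num)
  have h2 : DifferentiableAt ℝ (fderiv ℝ ψ) z :=
    (h'.fderiv_right (m := 1) (by norm_num)).differentiableAt (by norm_num)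
  have h3 : fderiv ℝ (fun w => φ w - c * ψ w) =ᶠ[𝓝 z] fun w => fderiv ℝ φ w - c • fderiv ℝ ψ w := by
    filter_upwards [h.eventually (by simp), h'.eventually (by simp)] with w hw hw'
    exact ((hw.differentiableAt (by norm_num)).hasFDerivAt.sub
      ((hw'.differentiableAt (by norm_num)).hasFDerivAt.const_mul c)).fderiv
  unfold D2
  have h4 : HasFDerivAt (fun w => fderiv ℝ φ w - c • fderiv ℝ ψ w) _ z :=
    h1.hasFDerivAt.sub (h2.hasFDerivAt.const_smul c)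
  rw [h3.fderiv_eq, h4.fderiv]
  simp

theorem lv_lin {φ ψ : E → ℝ} {z : E} (h : ContDiffAt ℝ 2 φ z) (h' : ContDiffAt ℝ 2 ψ z) (c : ℝ)
    (v : E) : Lv (fun w => φ w - c * ψ w) z v = Lv φ z v - c * Lv ψ z v := by
  unfold Lv
  rw [d2_lin h h', d2_lin h h']
  ring

/-- `log ‖f‖ ^ 2` -/
def lg (f : E → H) (w : E) : ℝ := Real.log (‖f w‖ ^ 2)

theorem cd_real {f : E → H} {z : E} (hf : AnalyticAt ℂ f z) : ContDiffAt ℝ 2 f z :=
  (hf.contDiffAt (n := 2)).restrict_scalars ℝ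

theorem cd_lg {f : E → H} {z : E} (hf : AnalyticAt ℂ f z) (h0 : f z ≠ 0) :
    ContDiffAt ℝ 2 (lg f) z :=
  ((cd_real hf).norm_sq ℂ).log (pow_ne_zero 2 (norm_ne_zero_iff.2 h0))

theorem hd_inner {f g : E → H} {z : E} {f' g' : E →L[ℂ] H} (hf : HasFDerivAt f f' z)
    (hg : HasFDerivAt g g' z) : ∃ A : E →L[ℝ] ℝ, HasFDerivAt (fun w => (⟪f w, g w⟫_ℂ).re) A z ∧
      ∀ u, A u = (⟪f z, g' u⟫_ℂ).re + (⟪f' u, g z⟫_ℂ).re := by
  have h1 := (hf.restrictScalars ℝ).inner ℂ (hg.restrictScalars ℝ)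
  refine ⟨_, reCLM.hasFDerivAt.comp z h1, fun u => ?_⟩
  simp [fderivInnerCLM_apply]

theorem nsq_eq (y : H) : ‖y‖ ^ 2 = (⟪y, y⟫_ℂ).re := by
  rw [← inner_self_eq_norm_sq (𝕜 := ℂ)]; rfl

theorem re_symm (x y : H) : (⟪x, y⟫_ℂ).re = (⟪y, x⟫_ℂ).re := by
  rw [← inner_conj_symm x y, conj_re]

theorem fd_lg {f : E → H} {z : E} (hf : DifferentiableAt ℂ f z) (h0 : f z ≠ 0) (v : E) :
    fderiv ℝ (lg f) z v = 2 * (⟪f z, fderiv ℂ f z v⟫_ℂ).re / (⟪f z, f z⟫_ℂ).re := by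
  obtain ⟨A, hA, hA'⟩ := hd_inner hf.hasFDerivAt hf.hasFDerivAt
  have h1 : lg f = fun w => Real.log (⟪f w, f w⟫_ℂ).re := by
    funext w; rw [lg, nsq_eq]
  have h2 : (⟪f z, f z⟫_ℂ).re ≠ 0 := by
    rw [← nsq_eq]; exact pow_ne_zero 2 (norm_ne_zero_iff.2 h0)
  rw [h1, (hA.log h2).fderiv, ContinuousLinearMap.smul_apply, hA', re_symm (fderiv ℂ f z v),
    smul_eq_mul]
  field_simp
  ring

theorem d2_lg {f : E → H} {z : E} (hf : AnalyticAt ℂ f z) (h0 : f z ≠ 0) (v : E) :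
    D2 (lg f) z v = 2 * ((⟪f z, fderiv ℂ (fderiv ℂ f) z v v⟫_ℂ).re + ‖fderiv ℂ f z v‖ ^ 2) /
      ‖f z‖ ^ 2 - 4 * (⟪f z, fderiv ℂ f z v⟫_ℂ).re ^ 2 / (‖f z‖ ^ 2) ^ 2 := by
  rw [d2_eq (cd_lg hf h0)]
  have h1 : (fun w => fderiv ℝ (lg f) w v) =ᶠ[𝓝 z]
      fun w => 2 * (⟪f w, fderiv ℂ f w v⟫_ℂ).re * ((⟪f w, f w⟫_ℂ).re)⁻¹ := by
    filter_upwards [hf.eventually_analyticAt, hf.continuousAt.eventually_ne h0] with w hw hw0
    rw [fd_lg hw.differentiableAt hw0, div_eq_mul_inv]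
  have hd := hf.differentiableAt.hasFDerivAt
  have hg := hf.fderiv.differentiableAt.hasFDerivAt.clm_apply (hasFDerivAt_const v z)
  obtain ⟨A, hA, hA'⟩ := hd_inner hd hg
  obtain ⟨C, hC, hC'⟩ := hd_inner hd hd
  have h2 : (⟪f z, f z⟫_ℂ).re ≠ 0 := by
    rw [← nsq_eq]; exact pow_ne_zero 2 (norm_ne_zero_iff.2 h0)
  have h3 := (hA.const_mul 2).mul ((hasDerivAt_inv h2).comp_hasFDerivAt z hC)
  have h4 := h3.fderiv
  rw [h1.fderiv_eq]
  refine (congrArg (fun T : E →L[ℝ] ℝ => T v) h4).trans ?_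
  simp only [ContinuousLinearMap.add_apply, ContinuousLinearMap.smul_apply, hA', hC',
    smul_eq_mul, ContinuousLinearMap.comp_apply, ContinuousLinearMap.flip_apply,
    ContinuousLinearMap.zero_apply, map_zero, zero_add, Function.comp_apply, nsq_eq,
    re_symm (fderiv ℂ f z v) (f z)]
  field_simp
  ring

theorem lv_lg {f : E → H} {z : E} (hf : AnalyticAt ℂ f z) (h0 : f z ≠ 0) (v : E) :
    Lv (lg f) z v = 4 * (‖f z‖ ^ 2 * ‖fderiv ℂ f z v‖ ^ 2 - ‖⟪f z, fderiv ℂ f z v⟫_ℂ‖ ^ 2) /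
      (‖f z‖ ^ 2) ^ 2 := by
  have h2 : ‖f z‖ ^ 2 ≠ 0 := pow_ne_zero 2 (norm_ne_zero_iff.2 h0)
  unfold Lv
  rw [d2_lg hf h0, d2_lg hf h0]
  simp only [map_smul, ContinuousLinearMap.smul_apply, inner_smul_right, norm_smul, norm_I,
    one_mul, mul_re, mul_im, I_re, I_im, zero_mul, Complex.sq_norm, normSq_apply]
  field_simp
  ring

theorem lv_lg_zero {f : E → H} {z : E} (hf : AnalyticAt ℂ f z) (h0 : f z ≠ 0) {v : E}
    (hv : fderiv ℂ f z v = 0) : Lv (lg f) z v = 0 := by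
  rw [lv_lg hf h0, hv]; simp

theorem lv_lg_nonneg {f : E → H} {z : E} (hf : AnalyticAt ℂ f z) (h0 : f z ≠ 0) (v : E) :
    0 ≤ Lv (lg f) z v := by
  rw [lv_lg hf h0]
  have h1 := norm_inner_le_norm (𝕜 := ℂ) (f z) (fderiv ℂ f z v)
  have h2 := pow_le_pow_left₀ (norm_nonneg _) h1 2
  refine div_nonneg (mul_nonneg (by norm_num) ?_) (sq_nonneg _)
  rw [mul_pow] at h2
  linarith

theorem lv_lg_pos {f : E → H} {z : E} (hf : AnalyticAt ℂ f z) (h0 : f z ≠ 0) {v : E}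
    (hv : ∀ c : ℂ, fderiv ℂ f z v ≠ c • f z) : 0 < Lv (lg f) z v := by
  rw [lv_lg hf h0]
  have h1 := norm_inner_le_norm (𝕜 := ℂ) (f z) (fderiv ℂ f z v)
  have h3 : ‖⟪f z, fderiv ℂ f z v⟫_ℂ‖ ≠ ‖f z‖ * ‖fderiv ℂ f z v‖ := by
    intro h
    have hne : fderiv ℂ f z v ≠ 0 := by simpa using hv 0
    obtain ⟨c, -, hc⟩ := (norm_inner_eq_norm_iff h0 hne).1 h
    exact hv c hc
  have h2 := pow_lt_pow_left₀ (lt_of_le_of_ne h1 h3) (norm_nonneg _) two_ne_zero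
  refine div_pos (mul_pos (by norm_num) ?_) (pow_pos (pow_pos (norm_pos_iff.2 h0) 2) 2)
  rw [mul_pow] at h2
  linarith

/-- a complex `k`-plane with negative Levi form contains a real `k`-plane with negative Hessian -/
theorem neg_of_lv {φ : E → ℝ} {z : E} {k : ℕ} (κ : (Fin k → ℂ) →ₗ[ℂ] E)
    (h : ∀ u ≠ 0, Lv φ z (κ u) < 0) :
    ∃ i : (Fin k → ℝ) →ₗ[ℝ] E, ∀ u ≠ 0, fderiv ℝ (fderiv ℝ φ) z (i u) (i u) < 0 := by
  let κ' : (Fin k → ℂ) →ₗ[ℝ] E := κ.restrictScalars ℝ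
  let B0 : E →ₗ[ℝ] E →ₗ[ℝ] ℝ := (ContinuousLinearMap.coeLM ℝ).comp
    (fderiv ℝ (fderiv ℝ φ) z).toLinearMap
  let J : (Fin k → ℂ) →ₗ[ℝ] (Fin k → ℂ) := (I • (LinearMap.id : (Fin k → ℂ) →ₗ[ℂ] _)).restrictScalars ℝ
  have hk : Module.finrank ℝ (Fin k → ℂ) = 2 * k := by
    rw [Module.finrank_pi_fintype]; simp [mul_comm]
  obtain ⟨i, hi⟩ := neg_plane hk J (B0.compl₁₂ κ' κ') (fun v hv => by
    have h1 := h v hv
    have h2 : κ' (J v) = I • κ v := κ.map_smul I v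
    show B0 (κ' v) (κ' v) + B0 (κ' (J v)) (κ' (J v)) < 0
    rw [h2]
    exact h1)
  exact ⟨κ' ∘ₗ i, hi⟩

end

end Vale.Agent.P300LJ
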