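import Vale.Agent.P300LJ.Tr
import Vale.Agent.P300LH.Seg

/-!
# P300L, block JOIN: generic parameters, linear forms, independence of the coordinates
-/

set_option linter.all false

open scoped Manifold ContDiff Topology Matrix
open Set Filter Function MeasureTheory
open Vale.Agent.P272.K (Cm Chart At)
open Vale.Agent.P281Z Vale.Agent.P300L Vale.Agent.P300LH
open Vale.Agent.P277Z (trans_an at_chart)

noncomputable section

namespace Vale.Agent.P300LJ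

section gn
variable (Q : Type) [AddCommGroup Q] [Module ℂ Q] [FiniteDimensional ℂ Q]

/-- the filter of the sets of full measure -/
def gn : Filter Q :=
  map (Module.finBasis ℂ Q).equivFun.symm (ae (volume : Measure (Cm (Module.finrank ℂ Q))))

instance : (gn Q).NeBot := map_neBot

variable {Q} {E F : Type} [NormedAddCommGroup E] [NormedSpace ℂ E] [FiniteDimensional ℂ E]
  [NormedAddCommGroup F] [NormedSpace ℂ F] [FiniteDimensional ℂ F]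

theorem transG (L : E → Q →ₗ[ℂ] F) : ∀ᶠ p in gn Q, ∀ z, (∀ q, AnalyticAt ℂ (fun z => L z q) z) →
    Surjective (L z) → L z p = 0 → Surjective (fderiv ℂ (fun z => L z p) z) := by
  have h := trans (U := {z | (∀ q, AnalyticAt ℂ (fun z => L z q) z) ∧ Surjective (L z)})
    (L := fun z => L z ∘ₗ (Module.finBasis ℂ Q).equivFun.symm.toLinearMap)
    (fun z hz p => hz.1 _) fun z hz => hz.2.comp (Module.finBasis ℂ Q).equivFun.symm.surjective
  exact eventually_map.2 (h.mono fun p hp z h1 h2 h3 => hp z ⟨h1, h2⟩ h3)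

theorem avoidG (hd : Module.finrank ℂ E < Module.finrank ℂ F) (L : E → Q →ₗ[ℂ] F) :
    ∀ᶠ p in gn Q, ∀ z, (∀ q, AnalyticAt ℂ (fun z => L z q) z) → Surjective (L z) → L z p ≠ 0 := by
  filter_upwards [transG L] with p hp z h1 h2 h0
  have h3 := LinearMap.finrank_le_finrank_of_surjective
    (f := (fderiv ℂ (fun z => L z p) z).toLinearMap) (hp z h1 h2 h0)
  omega

end gn

theorem fin_cover {n : ℕ} (V : Mf n) {κ : Type} {O : κ → Set V.X} (ho : ∀ b, IsOpen (O b))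
    (hc : ∀ x, ∃ b, x ∈ O b) : ∃ (ι : Type) (_ : Finite ι) (c : ι → κ) (e : ι → Chart n V.X),
      ∀ x, ∃ i, x ∈ O (c i) ∧ At (e i) x := by
  choose b hb using hc
  obtain ⟨t, ht⟩ := isCompact_univ.elim_finite_subcover
    (fun x : V.X => O (b x) ∩ (chartAt (Cm n) x).source)
    (fun x => (ho _).inter (chartAt (Cm n) x).open_source)
    fun x _ => mem_iUnion.2 ⟨x, hb x, mem_chart_source _ x⟩
  refine ⟨t, inferInstance, fun i => b i, fun i => chartAt (Cm n) i.1, fun x => ?_⟩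
  obtain ⟨y, hy, h⟩ := mem_iUnion₂.1 (ht (mem_univ x))
  exact ⟨⟨y, hy⟩, h.1, chart_mem_atlas _ y, h.2⟩

section lin
variable {N M m : ℕ}

theorem ex_vec (f : Cm N →ₗ[ℂ] ℂ) : ∃ τ : Cm N, ∀ y, τ ⬝ᵥ y = f y := by
  refine ⟨fun i => f (Pi.single i 1), fun y => ?_⟩
  rw [LinearMap.pi_apply_eq_sum_univ f y, dotProduct]
  refine Finset.sum_congr rfl fun i _ => ?_
  rw [smul_eq_mul, mul_comm]
  refine congrArg (y i * f ·) ?_
  funext j
  simp [Pi.single_apply, eq_comm]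

theorem sep {v w : Cm N} (h : ¬ ∃ c : ℂ, v = c • w) : ∃ τ : Cm N, τ ⬝ᵥ v = 1 ∧ τ ⬝ᵥ w = 0 := by
  obtain ⟨f, h1, h2⟩ := Submodule.exists_le_ker_of_notMem (p := Submodule.span ℂ {w}) (v := v)
    fun k => h ((Submodule.mem_span_singleton.1 k).imp fun _ e => e.symm)
  obtain ⟨τ, hτ⟩ := ex_vec f
  refine ⟨(f v)⁻¹ • τ, ?_, ?_⟩
  · rw [smul_dotProduct, hτ, smul_eq_mul, inv_mul_cancel₀ h1]
  · rw [smul_dotProduct, hτ, h2 (Submodule.mem_span_singleton_self w), smul_zero]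

theorem sep0 {v : Cm N} (h : v ≠ 0) : ∃ τ : Cm N, τ ⬝ᵥ v = 1 :=
  (sep (w := 0) fun ⟨c, e⟩ => h (e.trans (smul_zero c))).imp fun _ k => k.1

theorem ex_nu {β : ℕ} {l : Cm M} (h0 : l ≠ 0) (D : Cm β →L[ℂ] Cm M)
    (h : ∀ v (c : ℂ), D v = c • l → v = 0) (g : Cm β) :
    ∃ ν : Cm M, ν ⬝ᵥ l = 0 ∧ ∀ v, ν ⬝ᵥ D v = g ⬝ᵥ v := by
  let Λ : (ℂ × Cm β) →ₗ[ℂ] Cm M := (LinearMap.toSpanSingleton ℂ _ l).coprod D.toLinearMap
  have hΛ : LinearMap.ker Λ = ⊥ := by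
    refine LinearMap.ker_eq_bot'.2 fun q hq => ?_
    have h1 : q.1 • l + D q.2 = 0 := hq
    have h2 : q.2 = 0 := h q.2 (-q.1) (by rw [neg_smul]; exact eq_neg_of_add_eq_zero_right h1)
    rw [h2, map_zero, add_zero] at h1
    exact Prod.ext ((smul_eq_zero.1 h1).resolve_right h0) h2
  obtain ⟨R, hR⟩ := Λ.exists_leftInverse_of_injective hΛ
  obtain ⟨ν, hν⟩ := ex_vec ((dotProductBilin ℂ ℂ g) ∘ₗ LinearMap.snd ℂ _ _ ∘ₗ R)
  have k : ∀ q, ν ⬝ᵥ Λ q = g ⬝ᵥ q.2 := fun q => by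
    rw [hν]
    exact congrArg (fun r : ℂ × Cm β => g ⬝ᵥ r.2) (LinearMap.congr_fun hR q)
  refine ⟨ν, ?_, fun v => ?_⟩
  · simpa [Λ] using k (1, 0)
  · simpa [Λ] using k (0, v)

theorem surj_of_dual {V : Type} [AddCommGroup V] [Module ℂ V] (A : V →ₗ[ℂ] Cm m)
    (h : ∀ ξ : Cm m, (∀ v, ξ ⬝ᵥ A v = 0) → ξ = 0) : Surjective A := by
  intro y
  by_contra hy
  obtain ⟨f, h1, h2⟩ := Submodule.exists_le_ker_of_notMem (p := LinearMap.range A) (v := y) hy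
  obtain ⟨τ, hτ⟩ := ex_vec f
  rw [← hτ, h τ fun v => (hτ _).trans (h2 ⟨v, rfl⟩), zero_dotProduct] at h1
  exact h1 rfl

/-- an operator of rank one -/
def el (u : Cm N) (g : Cm m) : Cm N →L[ℂ] Cm m :=
  LinearMap.toContinuousLinearMap ((dotProductBilin ℂ ℂ u).smulRight g)

theorem el_kr (τ a : Cm N) (ν b : Cm M) (g : Cm m) :
    el (kr τ ν) g (kr a b) = ((τ ⬝ᵥ a) * (ν ⬝ᵥ b)) • g := by
  rw [← kr_dot]; rfl

theorem resc {E : Type} [NormedAddCommGroup E] [NormedSpace ℂ E] {f f' : E → Cm N} {z : E}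
    (hf : AnalyticAt ℂ f z) (hf' : AnalyticAt ℂ f' z) (h0 : f z ≠ 0)
    (h : ∀ᶠ w in 𝓝 z, ∃ c : ℂ, f' w = c • f w) : ∃ (c : ℂ) (L : E → ℂ), f' z = c • f z ∧
      ∀ ξ, fderiv ℂ f' z ξ = c • fderiv ℂ f z ξ + L ξ • f z := by
  obtain ⟨i, hi⟩ := Function.ne_iff.1 h0
  have a1 := analyticAt_pi_iff.1 hf i
  have a2 := (analyticAt_pi_iff.1 hf' i).div a1 hi
  have e : f' =ᶠ[𝓝 z] fun w => (f' w i / f w i) • f w := by
    filter_upwards [h, a1.continuousAt.eventually_ne hi] with w ⟨c, hc⟩ hw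
    rw [hc, Pi.smul_apply, smul_eq_mul, mul_div_cancel_right₀ _ hw]
  have d : HasFDerivAt (fun w => (f' w i / f w i) • f w) _ z :=
    a2.differentiableAt.hasFDerivAt.smul hf.differentiableAt.hasFDerivAt
  exact ⟨_, _, e.self_of_nhds, fun ξ => by rw [e.fderiv_eq, d.fderiv]; rfl⟩

end lin

theorem dv_chg {n N : ℕ} {X : Type} [TopologicalSpace X] [ChartedSpace (Cm n) X]
    [IsManifold 𝓘(ℂ, Cm n) ω X] {t : X → Cm N} {x : X} (h : AnV n t x) {e e' : Chart n X}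
    (he : At e x) (he' : At e' x) (ξ : Cm n) :
    dv t e x ξ = dv t e' x (fderiv ℂ (fun z => e' (e.symm z)) (e x) ξ) := by
  have k : (fun z => t (e.symm z)) =ᶠ[𝓝 (e x)]
      (fun z => t (e'.symm z)) ∘ fun z => e' (e.symm z) :=
    (at_ev he (at_near he')).mono fun z hz => (congrArg t hz.left_inv).symm
  have d1 : HasFDerivAt (fun z => t (e'.symm z)) (fderiv ℂ (fun z => t (e'.symm z)) (e' x))
      (e' (e.symm (e x))) := by
    rw [he.left_inv]; exact (h e' he').differentiableAt.hasFDerivAt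
  have d2 := d1.comp (e x) (trans_an he' he).differentiableAt.hasFDerivAt
  rw [dv, k.fderiv_eq, d2.fderiv]
  rfl

/-- transversality at `s` in one system of coordinates -/
def TV {n m : ℕ} (J : Jo n m) (b : J.κ) (s : J.S.X) (e : Chart n J.S.X) : Prop :=
  ∀ t : ℂ, J.p₁ (J.a₁ b s) = t • J.p₂ (J.a₂ b s) → Surjective fun q : Cm n × ℂ =>
    J.p₁ (dv (J.a₁ b) e s q.1) - t • J.p₂ (dv (J.a₂ b) e s q.1) - q.2 • J.p₂ (J.a₂ b s)

theorem TV.chg {n m : ℕ} {J : Jo n m} (h : J.Pre) {b b' : J.κ} {s : J.S.X} {e e' : Chart n J.S.X}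
    (hb : s ∈ J.O b) (hb' : s ∈ J.O b') (he : At e s) (he' : At e' s) (k : TV J b s e) :
    TV J b' s e' := by
  intro t ht g
  have near : ∀ᶠ z in 𝓝 (e s), e.symm z ∈ J.O b ∧ e.symm z ∈ J.O b' :=
    at_ev he (P := fun y => y ∈ J.O b ∧ y ∈ J.O b')
      (Eventually.and ((h.lo₁.opn b).mem_nhds hb) ((h.lo₁.opn b').mem_nhds hb'))
  obtain ⟨c₁, L₁, e₁, d₁⟩ := resc (h.lo₁.hol b s hb e he) (h.lo₁.hol b' s hb' e he)
    (by rw [he.left_inv]; exact h.lo₁.nz b s hb) (near.mono fun z hz => h.lo₁.chg _ _ _ hz.2 hz.1)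
  obtain ⟨c₂, L₂, e₂, d₂⟩ := resc (h.lo₂.hol b s hb e he) (h.lo₂.hol b' s hb' e he)
    (by rw [he.left_inv]; exact h.lo₂.nz b s hb) (near.mono fun z hz => h.lo₂.chg _ _ _ hz.2 hz.1)
  simp only [he.left_inv] at e₁ e₂ d₁ d₂
  have n₁ : c₁ ≠ 0 := fun e => h.lo₁.nz b' s hb' (by rw [e₁, e, zero_smul])
  have n₂ : c₂ ≠ 0 := fun e => h.lo₂.nz b' s hb' (by rw [e₂, e, zero_smul])
  have ht' : J.p₁ (J.a₁ b s) = (c₁⁻¹ * (t * c₂)) • J.p₂ (J.a₂ b s) := by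
    rw [e₁, e₂, map_smul, map_smul, smul_smul] at ht
    rw [mul_smul, ← ht, inv_smul_smul₀ n₁]
  obtain ⟨⟨ξ, τ⟩, hq⟩ := k _ ht' (c₁⁻¹ • g)
  refine ⟨(fderiv ℂ (fun z => e' (e.symm z)) (e s) ξ,
    (c₁ * τ + L₁ ξ * (c₁⁻¹ * (t * c₂)) - t * L₂ ξ) / c₂), ?_⟩
  have hg : g = c₁ • (J.p₁ (dv (J.a₁ b) e s ξ) - (c₁⁻¹ * (t * c₂)) • J.p₂ (dv (J.a₂ b) e s ξ) -
      τ • J.p₂ (J.a₂ b s)) := ((inv_smul_eq_iff₀ n₁).1 hq.symm)
  show J.p₁ (dv _ e' s _) - t • J.p₂ (dv _ e' s _) - _ • J.p₂ (J.a₂ b' s) = g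
  rw [← dv_chg (h.lo₁.hol b' s hb') he he', ← dv_chg (h.lo₂.hol b' s hb') he he', dv, dv, d₁, d₂,
    e₂, hg]
  simp only [map_add, map_smul, ht', dv]
  funext i
  simp only [Pi.sub_apply, Pi.add_apply, Pi.smul_apply, smul_eq_mul]
  field_simp
  ring

end Vale.Agent.P300LJ
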