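import Vale.Agent.P284.H451.D.Sard

/-!
# P300L, block JOIN: parametric transversality for families linear in the parameter
-/

set_option linter.all false

open Set Filter MeasureTheory Function
open scoped Topology

noncomputable section

namespace Vale.Agent.P300LJ

open Vale.Agent.P281.H64 (Cm)

/-- local to global for almost everywhere statements -/
theorem ae_of_loc {X P : Type} [TopologicalSpace X] [SecondCountableTopology X]
    [MeasurableSpace P] {μ : Measure P} {S : Set X} {Q : X → P → Prop}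
    (h : ∀ x ∈ S, ∃ O ∈ 𝓝 x, ∀ᵐ p ∂μ, ∀ y ∈ O, y ∈ S → Q y p) :
    ∀ᵐ p ∂μ, ∀ x ∈ S, Q x p := by
  choose! O hO hQ using h
  obtain ⟨T, hTS, hTc, hcov⟩ := TopologicalSpace.countable_cover_nhdsWithin (s := S) (f := O)
    (fun x hx => mem_nhdsWithin_of_mem_nhds (hO x hx))
  have h1 : ∀ᵐ p ∂μ, ∀ x ∈ T, ∀ y ∈ O x, y ∈ S → Q y p :=
    (ae_ball_iff hTc).2 fun x hx => hQ x (hTS hx)
  filter_upwards [h1] with p hp x hx
  obtain ⟨y, hy, hxy⟩ := mem_iUnion₂.1 (hcov hx)
  exact hp y hy x hxy hx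

section
variable {E F : Type} [NormedAddCommGroup E] [NormedSpace ℂ E] [FiniteDimensional ℂ E]
  [NormedAddCommGroup F] [NormedSpace ℂ F] [FiniteDimensional ℂ F] {N : ℕ}

theorem trans_loc {L : E → Cm N →L[ℂ] F} {z0 : E} (hL : AnalyticAt ℂ L z0)
    (hs : Surjective (L z0)) :
    ∃ O ∈ 𝓝 z0, ∀ᵐ p : Cm N, ∀ z ∈ O, L z p = 0 → Surjective (fderiv ℂ (fun z => L z p) z) := by
  haveI : CompleteSpace F := FiniteDimensional.complete ℂ F
  haveI : CompleteSpace E := FiniteDimensional.complete ℂ E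
  obtain ⟨R0, hR0⟩ := LinearMap.exists_rightInverse_of_surjective (L z0).toLinearMap
    (LinearMap.range_eq_top.2 hs)
  let R : F →L[ℂ] Cm N := LinearMap.toContinuousLinearMap R0
  let M : E → F →L[ℂ] F := fun z => (L z).comp R
  have hM : AnalyticAt ℂ M z0 :=
    (((ContinuousLinearMap.compL ℂ F (Cm N) F).flip R).analyticAt _).comp hL
  have hM0 : M z0 = 1 := by
    ext y
    exact LinearMap.congr_fun hR0 y
  have hu : ∀ᶠ z in 𝓝 z0, IsUnit (M z) := by
    have h1 : {x : F →L[ℂ] F | IsUnit x} ∈ 𝓝 (M z0) :=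
      Units.isOpen.mem_nhds (by rw [hM0]; exact isUnit_one)
    exact hM.continuousAt h1
  obtain ⟨O, hOs, hOo, hz0⟩ := eventually_nhds_iff.1
    (hu.and (hL.eventually_analyticAt.and hM.eventually_analyticAt))
  refine ⟨O, hOo.mem_nhds hz0, ?_⟩
  let T : E × Cm N → Cm N := fun w => w.2 - R (Ring.inverse (M w.1) (L w.1 w.2))
  have hLw : ∀ w : E × Cm N, w.1 ∈ O → AnalyticAt ℂ (fun w : E × Cm N => L w.1) w :=
    fun w hw => AnalyticAt.comp (g := L) (f := Prod.fst) (hOs _ hw).2.1 analyticAt_fst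
  have hT : ∀ w ∈ O ×ˢ (univ : Set (Cm N)), AnalyticAt ℂ T w := by
    intro w hw
    obtain ⟨u, hu'⟩ := (hOs _ hw.1).1
    have h1 : AnalyticAt ℂ (fun w : E × Cm N => M w.1) w :=
      AnalyticAt.comp (g := M) (f := Prod.fst) (hOs _ hw.1).2.2 analyticAt_fst
    have h2 : AnalyticAt ℂ (fun w : E × Cm N => Ring.inverse (M w.1)) w := by
      refine AnalyticAt.comp (g := Ring.inverse) (f := fun w : E × Cm N => M w.1) ?_ h1
      show AnalyticAt ℂ Ring.inverse (M w.1)
      rw [← hu']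
      exact analyticAt_inverse u
    have h3 : AnalyticAt ℂ (fun w : E × Cm N => L w.1 w.2) w :=
      ((ContinuousLinearMap.id ℂ (Cm N →L[ℂ] F)).analyticAt_bilinear _).comp₂ (hLw w hw.1)
        analyticAt_snd
    have h4 : AnalyticAt ℂ (fun w : E × Cm N => Ring.inverse (M w.1) (L w.1 w.2)) w :=
      ((ContinuousLinearMap.id ℂ (F →L[ℂ] F)).analyticAt_bilinear _).comp₂ h2 h3
    exact analyticAt_snd.sub ((R.analyticAt _).comp h4)
  have hzero : ∀ w : E × Cm N, w.1 ∈ O → L w.1 (T w) = 0 := by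
    intro w hw
    have h1 : M w.1 * Ring.inverse (M w.1) = 1 := Ring.mul_inverse_cancel _ (hOs _ hw).1
    have h2 : M w.1 (Ring.inverse (M w.1) (L w.1 w.2)) = L w.1 w.2 := by
      rw [← ContinuousLinearMap.mul_apply, h1, ContinuousLinearMap.one_apply]
    show L w.1 (w.2 - R (Ring.inverse (M w.1) (L w.1 w.2))) = 0
    rw [map_sub]
    exact sub_eq_zero.2 h2.symm
  have hS := Vale.Agent.P284.H451.D.sard_ae (hOo.prod isOpen_univ) hT
  filter_upwards [hS] with p hp z hz h0 y
  have hTp : T (z, p) = p := by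
    show p - R (Ring.inverse (M z) (L z p)) = p
    rw [h0, map_zero, map_zero, sub_zero]
  have hsur := hp (z, p) ⟨hz, mem_univ _⟩ hTp
  have hLs : Surjective (L z) := by
    intro y
    have h1 : M z * Ring.inverse (M z) = 1 := Ring.mul_inverse_cancel _ (hOs _ hz).1
    refine ⟨R (Ring.inverse (M z) y), ?_⟩
    show M z (Ring.inverse (M z) y) = y
    rw [← ContinuousLinearMap.mul_apply, h1, ContinuousLinearMap.one_apply]
  obtain ⟨r, hr⟩ := hLs (-y)
  obtain ⟨⟨v, q⟩, hvq⟩ := hsur r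
  refine ⟨v, ?_⟩
  have hLd : HasFDerivAt L (fderiv ℂ L z) z := (hOs _ hz).2.1.differentiableAt.hasFDerivAt
  have hL1 : HasFDerivAt (fun w : E × Cm N => L w.1)
      ((fderiv ℂ L z).comp (ContinuousLinearMap.fst ℂ E (Cm N))) (z, p) :=
    HasFDerivAt.comp (g := L) (f := Prod.fst) (z, p) hLd hasFDerivAt_fst
  have hTd : HasFDerivAt T (fderiv ℂ T (z, p)) (z, p) :=
    (hT (z, p) ⟨hz, mem_univ _⟩).differentiableAt.hasFDerivAt
  have hG := hL1.clm_apply hTd
  have hG0 : HasFDerivAt (fun w : E × Cm N => L w.1 (T w)) (0 : E × Cm N →L[ℂ] F) (z, p) := by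
    refine (hasFDerivAt_const (0 : F) (z, p)).congr_of_eventuallyEq ?_
    have h1 : ∀ᶠ w : E × Cm N in 𝓝 (z, p), w.1 ∈ O :=
      continuous_fst.continuousAt.eventually (hOo.mem_nhds hz)
    exact h1.mono fun w hw => hzero w hw
  have h5 := congrArg (fun A : E × Cm N →L[ℂ] F => A (v, q)) (hG.unique hG0)
  simp only [ContinuousLinearMap.add_apply, ContinuousLinearMap.comp_apply,
    ContinuousLinearMap.flip_apply, ContinuousLinearMap.coe_fst', ContinuousLinearMap.zero_apply,
    hvq, hr, hTp] at h5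
  have h6 := (hLd.clm_apply (hasFDerivAt_const p z)).fderiv
  rw [h6]
  simp only [ContinuousLinearMap.add_apply, ContinuousLinearMap.comp_apply,
    ContinuousLinearMap.flip_apply, ContinuousLinearMap.zero_apply, map_zero, zero_add]
  exact (neg_add_eq_zero.1 h5).symm

/-- a family of linear maps, analytic pointwise, is analytic -/
theorem an_clm {L : E → Cm N →ₗ[ℂ] F} {z : E} (h : ∀ p, AnalyticAt ℂ (fun z => L z p) z) :
    AnalyticAt ℂ (fun z => LinearMap.toContinuousLinearMap (L z)) z := by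
  have h1 : (fun z => LinearMap.toContinuousLinearMap (L z)) = fun z => ∑ i : Fin N,
      (ContinuousLinearMap.smulRightL ℂ (Cm N) F (ContinuousLinearMap.proj i))
        (L z (Pi.single i 1)) := by
    funext z
    ext p
    simp only [LinearMap.coe_toContinuousLinearMap', ContinuousLinearMap.sum_apply,
      ContinuousLinearMap.smulRightL_apply_apply, ContinuousLinearMap.smulRight_apply,
      ContinuousLinearMap.proj_apply, ← map_smul, ← map_sum]
    refine congrArg (L z) ?_
    funext j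
    simp [Finset.sum_apply, Pi.single_apply]
  rw [h1]
  exact Finset.analyticAt_fun_sum _ fun i _ =>
    ((ContinuousLinearMap.smulRightL ℂ (Cm N) F (ContinuousLinearMap.proj i)).analyticAt _).comp
      (h _)

/-- **Transversality**: for almost every parameter all zeros are regular. -/
theorem trans {U : Set E} {L : E → Cm N →ₗ[ℂ] F}
    (hL : ∀ z ∈ U, ∀ p, AnalyticAt ℂ (fun z => L z p) z) (hs : ∀ z ∈ U, Surjective (L z)) :
    ∀ᵐ p : Cm N, ∀ z ∈ U, L z p = 0 → Surjective (fderiv ℂ (fun z => L z p) z) := by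
  refine ae_of_loc (Q := fun z p => L z p = 0 → Surjective (fderiv ℂ (fun z => L z p) z)) ?_
  intro z hz
  obtain ⟨O, hO, h⟩ := trans_loc (L := fun z => LinearMap.toContinuousLinearMap (L z))
    (an_clm (hL z hz)) (hs z hz)
  exact ⟨O, hO, h.mono fun p hp y hy _ h0 => hp y hy h0⟩

/-- **Avoidance**: more conditions than dimensions. -/
theorem avoid (hd : Module.finrank ℂ E < Module.finrank ℂ F) {U : Set E} {L : E → Cm N →ₗ[ℂ] F}
    (hL : ∀ z ∈ U, ∀ p, AnalyticAt ℂ (fun z => L z p) z) (hs : ∀ z ∈ U, Surjective (L z)) :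
    ∀ᵐ p : Cm N, ∀ z ∈ U, L z p ≠ 0 := by
  filter_upwards [trans hL hs] with p hp z hz h0
  have h1 := LinearMap.finrank_le_finrank_of_surjective
    (f := (fderiv ℂ (fun z => L z p) z).toLinearMap) (hp z hz h0)
  omega

end

end Vale.Agent.P300LJ
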